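import Vale.Agent.P028.EV.Defs

/-! # P028 case A: counting lattice points with two congruence conditions -/

open scoped BigOperators

namespace Vale.P028EV.CA

/-- A residue class modulo a divisor of `q` meets `[0, q)` in `q / ℓ` points. -/
lemma card_class {q ℓ : ℕ} (hℓ : 0 < ℓ) (hdvd : ℓ ∣ q) (u : ℤ) :
    ((Finset.range q).filter (fun a : ℕ => (ℓ:ℤ) ∣ (a:ℤ) - u)).card = q / ℓ := by
  obtain ⟨m, rfl⟩ := hdvd
  rw [Nat.mul_div_cancel_left _ hℓ]
  have hr0 : 0 ≤ u % (ℓ:ℤ) := Int.emod_nonneg _ (by omega)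
  have hr1 : u % (ℓ:ℤ) < ℓ := Int.emod_lt_of_pos _ (by omega)
  set r := (u % (ℓ:ℤ)).toNat with hr
  have hrc : (r:ℤ) = u % (ℓ:ℤ) := Int.toNat_of_nonneg hr0
  have hrl : r < ℓ := by omega
  have hiff : ∀ a : ℕ, ((ℓ:ℤ) ∣ (a:ℤ) - u) ↔ a % ℓ = r := by
    intro a
    rw [← Int.modEq_iff_dvd, Int.ModEq, ← hrc]
    constructor
    · intro h
      exact_mod_cast h.symm
    · intro h
      exact_mod_cast h.symm
  have himage : (Finset.range (ℓ * m)).filter (fun a : ℕ => (ℓ:ℤ) ∣ (a:ℤ) - u)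
      = (Finset.range m).image (fun t => r + ℓ * t) := by
    ext a
    simp only [Finset.mem_filter, Finset.mem_range, Finset.mem_image, hiff]
    constructor
    · rintro ⟨ha, he⟩
      exact ⟨a / ℓ, Nat.div_lt_of_lt_mul ha, by rw [← he]; exact Nat.mod_add_div a ℓ⟩
    · rintro ⟨t, ht, rfl⟩
      refine ⟨?_, by rw [Nat.add_mul_mod_self_left, Nat.mod_eq_of_lt hrl]⟩
      calc r + ℓ * t < ℓ + ℓ * t := by omega
        _ = ℓ * (t + 1) := by ring
        _ ≤ ℓ * m := Nat.mul_le_mul_left _ ht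
  rw [himage, Finset.card_image_of_injective _ (fun a b h => Nat.eq_of_mul_eq_mul_left hℓ
    (Nat.add_left_cancel h)), Finset.card_range]

/-- integers of a class in an open interval -/
lemma card_interval_class {h : ℕ} (hh : 0 < h) (e : ℤ) (c w : ℝ) (hw : 0 ≤ w) :
    |((((Finset.Icc ⌊c - w⌋ ⌈c + w⌉).filter
        (fun n : ℤ => |(n:ℝ) - c| < w ∧ (h:ℤ) ∣ n - e)).card : ℕ) : ℝ) - 2 * w / h| ≤ 1 := by
  have hR : (0:ℝ) < h := by exact_mod_cast hh
  set A := (c - w - e) / h with hA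
  set B := (c + w - e) / h with hB
  have hmap : (Finset.Icc ⌊c - w⌋ ⌈c + w⌉).filter
      (fun n : ℤ => |(n:ℝ) - c| < w ∧ (h:ℤ) ∣ n - e)
      = (Finset.Ioo ⌊A⌋ ⌈B⌉).image (fun l => e + (h:ℤ) * l) := by
    ext n
    simp only [Finset.mem_filter, Finset.mem_Icc, Finset.mem_image, Finset.mem_Ioo]
    constructor
    · rintro ⟨-, habs, l, hl⟩
      refine ⟨l, ?_, by omega⟩
      have hn : (n:ℝ) = e + h * l := by
        have : n = e + (h:ℤ) * l := by omega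
        exact_mod_cast this
      rw [abs_lt, hn] at habs
      rw [Int.floor_lt, Int.lt_ceil, hA, hB, div_lt_iff₀ hR, lt_div_iff₀ hR]
      constructor <;> nlinarith [habs.1, habs.2]
    · rintro ⟨l, ⟨h1, h2⟩, rfl⟩
      rw [Int.floor_lt, hA, div_lt_iff₀ hR] at h1
      rw [Int.lt_ceil, hB, lt_div_iff₀ hR] at h2
      refine ⟨⟨?_, ?_⟩, ?_, ⟨l, by ring⟩⟩
      · exact Int.le_of_lt_add_one (by
          rw [Int.floor_lt]; push_cast; linarith)
      · exact Int.le_of_lt_add_one (by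
          have := Int.le_ceil (c + w)
          have h3 : ((e + (h:ℤ) * l : ℤ) : ℝ) < ((⌈c + w⌉ + 1 : ℤ) : ℝ) := by
            push_cast; linarith
          exact_mod_cast h3)
      · rw [abs_lt]; push_cast; constructor <;> linarith
  rw [hmap, Finset.card_image_of_injective _ (fun a b hab => by
    have : (h:ℤ) * a = (h:ℤ) * b := by linarith
    exact mul_left_cancel₀ (by omega) this), Int.card_Ioo]
  have hBA : B - A = 2 * w / h := by rw [hA, hB]; field_simp; ring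
  rw [← hBA]
  have hBA0 : 0 ≤ B - A := by rw [hBA]; positivity
  have f1 := Int.floor_le A
  have f2 := Int.lt_floor_add_one A
  have c1 := Int.le_ceil B
  have c2 := Int.ceil_lt_add_one B
  have hnat : (((⌈B⌉ - ⌊A⌋ - 1).toNat : ℕ) : ℝ) = max ((⌈B⌉:ℝ) - ⌊A⌋ - 1) 0 := by
    have : (((⌈B⌉ - ⌊A⌋ - 1).toNat : ℕ) : ℤ) = max (⌈B⌉ - ⌊A⌋ - 1) 0 := Int.toNat_eq_max _
    have h2 := congrArg (fun z : ℤ => (z:ℝ)) this
    push_cast at h2
    exact h2
  rw [hnat, abs_le]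
  constructor
  · linarith [le_max_left ((⌈B⌉:ℝ) - ⌊A⌋ - 1) 0]
  · linarith [max_le (show (⌈B⌉:ℝ) - ⌊A⌋ - 1 ≤ B - A + 1 by linarith)
      (show (0:ℝ) ≤ B - A + 1 by linarith)]

/-- Pairs `(a mod gx, b)` in two classes with `ya - xb` in an interval: the expected number
`g·2w/(dA dB)`, up to `g`. -/
theorem card_pairs {g x y dA dB : ℕ} (hg : 0 < g) (hx : 0 < x) (hy : 0 < y)
    (hxy : Nat.Coprime x y) (hA : dA ∣ g * x) (hB : dB ∣ g * y) (α β : ℤ) (c w : ℝ)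
    (hw : 0 ≤ w) :
    |(∑ n ∈ (Finset.Icc ⌊c - w⌋ ⌈c + w⌉).filter (fun n : ℤ => |(n:ℝ) - c| < w),
        (((Finset.range (g * x)).filter (fun a : ℕ => (dA:ℤ) ∣ (a:ℤ) - α ∧
          ((x * dB : ℕ):ℤ) ∣ (y:ℤ) * a - n - (x:ℤ) * β)).card : ℝ))
      - g * (2 * w) / (dA * dB)| ≤ g := by
  have hgx : 0 < g * x := Nat.mul_pos hg hx
  have hA0 : 0 < dA := Nat.pos_of_dvd_of_pos hA hgx
  have hB0 : 0 < dB := Nat.pos_of_dvd_of_pos hB (Nat.mul_pos hg hy)
  set h := Nat.gcd (y * dA) (x * dB) with hh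
  have hh0 : 0 < h := Nat.gcd_pos_of_pos_left _ (Nat.mul_pos hy hA0)
  have hhd : h ∣ dA * dB := by
    have h1 : h ∣ y * (dA * dB) := by
      rw [← mul_assoc]; exact Dvd.dvd.mul_right (Nat.gcd_dvd_left _ _) _
    have h2 : h ∣ x * (dA * dB) := by
      rw [mul_comm dA dB, ← mul_assoc]; exact Dvd.dvd.mul_right (Nat.gcd_dvd_right _ _) _
    have h3 := Nat.dvd_gcd h2 h1
    rwa [Nat.gcd_mul_right, hxy, one_mul] at h3
  obtain ⟨A', hA'⟩ : h ∣ y * dA := Nat.gcd_dvd_left _ _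
  obtain ⟨M, hM⟩ : h ∣ x * dB := Nat.gcd_dvd_right _ _
  have hM0 : 0 < M := by
    rcases Nat.eq_zero_or_pos M with rfl | h0
    · simp only [mul_zero] at hM
      exact absurd hM (Nat.mul_pos hx hB0).ne'
    · exact h0
  have hcop : Nat.Coprime A' M := by
    have := Nat.gcd_mul_left h A' M
    rw [← hA', ← hM, ← hh] at this
    exact (Nat.eq_of_mul_eq_mul_left hh0 (by rw [mul_one]; exact this.symm))
  obtain ⟨kA, hkA⟩ := hA
  -- the period in `a`
  set ℓ := dA * M with hℓ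
  have hℓ0 : 0 < ℓ := Nat.mul_pos hA0 hM0
  have hℓdvd : ℓ ∣ g * x := by
    rw [hkA]
    refine Nat.mul_dvd_mul_left dA ?_
    obtain ⟨kB, hkB⟩ := hB
    have h1 : h * M ∣ (y * dA) * kA := by
      rw [← hM, mul_assoc, ← hkA, show y * (g * x) = x * (g * y) by ring, hkB]
      exact ⟨kB, by ring⟩
    rw [hA', mul_assoc] at h1
    exact (hcop.symm.dvd_of_dvd_mul_left (Nat.dvd_of_mul_dvd_mul_left hh0 h1))
  set q := g * x
  set e : ℤ := (y:ℤ) * α - (x:ℤ) * β with he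
  have key : ∀ n : ℤ, (((Finset.range q).filter (fun a : ℕ => (dA:ℤ) ∣ (a:ℤ) - α ∧
      ((x * dB : ℕ):ℤ) ∣ (y:ℤ) * a - n - (x:ℤ) * β)).card : ℕ)
      = if (h:ℤ) ∣ n - e then q / ℓ else 0 := by
    intro n
    split_ifs with hn
    · obtain ⟨t, ht⟩ := hn
      obtain ⟨u, v, huv⟩ : ∃ u v : ℤ, u * A' + v * M = 1 :=
        (Nat.isCoprime_iff_coprime.2 hcop : IsCoprime (A':ℤ) (M:ℤ))
      set a0 : ℤ := α + (dA:ℤ) * (u * t) with ha0
      rw [← card_class hℓ0 hℓdvd a0]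
      congr 1
      refine Finset.filter_congr fun a _ => ?_
      have hM' : (x:ℤ) * dB = (h:ℤ) * M := by exact_mod_cast hM
      have hA'' : (y:ℤ) * dA = (h:ℤ) * A' := by exact_mod_cast hA'
      push_cast [hℓ]
      constructor
      · rintro ⟨⟨k, hk⟩, ⟨l, hl⟩⟩
        -- `a = α + dA k` with `A' k ≡ t (mod M)`
        have e1 : (h:ℤ) * ((A':ℤ) * k - t - M * l) = 0 := by
          rw [he] at ht
          linear_combination hl - (y:ℤ) * hk + ht + l * hM' - k * hA''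
        have e2 : (A':ℤ) * k - t - M * l = 0 := by
          rcases mul_eq_zero.1 e1 with h0 | h0
          · exact absurd h0 (by exact_mod_cast hh0.ne')
          · exact h0
        refine ⟨k * v + u * l, ?_⟩
        rw [ha0]
        linear_combination hk + (dA:ℤ) * u * e2 - (dA:ℤ) * k * huv
      · rintro ⟨s, hs⟩
        refine ⟨⟨u * t + M * s, by rw [ha0] at hs; linear_combination hs⟩,
          ⟨(A':ℤ) * s - v * t, ?_⟩⟩
        rw [ha0] at hs
        rw [he] at ht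
        linear_combination (y:ℤ) * hs - ht + (u * t + (M:ℤ) * s) * hA''
          - ((A':ℤ) * s - v * t) * hM' + (h:ℤ) * t * huv
    · rw [Finset.card_eq_zero, Finset.filter_eq_empty_iff]
      rintro a - ⟨⟨k, hk⟩, ⟨l, hl⟩⟩
      apply hn
      refine ⟨(A':ℤ) * k - M * l, ?_⟩
      have hM' : (x:ℤ) * dB = (h:ℤ) * M := by exact_mod_cast hM
      have hA'' : (y:ℤ) * dA = (h:ℤ) * A' := by exact_mod_cast hA'
      rw [he]
      push_cast at hl
      linear_combination -hl + (y:ℤ) * hk + k * hA'' - l * hM'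
  simp only [key, Nat.cast_ite, Nat.cast_zero]
  rw [← Finset.sum_filter, Finset.sum_const, nsmul_eq_mul, Finset.filter_filter]
  have hint := card_interval_class hh0 e c w hw
  set N : ℝ := ((((Finset.Icc ⌊c - w⌋ ⌈c + w⌉).filter
        (fun n : ℤ => |(n:ℝ) - c| < w ∧ (h:ℤ) ∣ n - e)).card : ℕ) : ℝ)
  have hq : (((q / ℓ : ℕ)) : ℝ) = (g:ℝ) * h / (dA * dB) := by
    rw [eq_div_iff (by positivity)]
    have h1 : q / ℓ * ℓ = q := Nat.div_mul_cancel hℓdvd
    have h2 : ((q / ℓ : ℕ):ℝ) * ((dA:ℝ) * M) = (g:ℝ) * x := by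
      rw [hℓ] at h1
      exact_mod_cast h1
    have h3 : (x:ℝ) * dB = (h:ℝ) * M := by exact_mod_cast hM
    have hMR : (M:ℝ) ≠ 0 := by exact_mod_cast hM0.ne'
    refine mul_right_cancel₀ hMR ?_
    rw [show (g:ℝ) * h * M = g * (h * M) by ring, ← h3]
    linear_combination (dB:ℝ) * h2
  rw [hq]
  have hle : (g:ℝ) * h / (dA * dB) ≤ g := by
    rw [div_le_iff₀ (by positivity)]
    have : (h:ℝ) ≤ (dA:ℝ) * dB := by exact_mod_cast Nat.le_of_dvd (Nat.mul_pos hA0 hB0) hhd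
    exact mul_le_mul_of_nonneg_left this (Nat.cast_nonneg g)
  have hhR : (0:ℝ) < h := by exact_mod_cast hh0
  have e3 : N * ((g:ℝ) * h / (dA * dB)) - g * (2 * w) / (dA * dB)
      = (g:ℝ) * h / (dA * dB) * (N - 2 * w / h) := by
    field_simp
  rw [e3, abs_mul, abs_of_nonneg (show (0:ℝ) ≤ (g:ℝ) * h / (dA * dB) by positivity)]
  calc (g:ℝ) * h / (dA * dB) * |N - 2 * w / h| ≤ g * 1 :=
        mul_le_mul hle hint (abs_nonneg _) (Nat.cast_nonneg g)
    _ = g := mul_one _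

end Vale.P028EV.CA
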