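import Vale.Agent.P028.EV.Defs

/-! # P028 case A: Euler products split at `s`, and the exponential moments of `SS` -/

open scoped BigOperators
open Real

namespace Vale.P028EV.CA

/-- The primes above `s` dividing `v`. -/
def large (s v : ℕ) : Finset ℕ := v.primeFactors.filter (fun p => s < p)

lemma SS_nonneg (s v : ℕ) : 0 ≤ SS s v :=
  Finset.sum_nonneg fun _ _ => by positivity

lemma inv_prime_le_half {p : ℕ} (hp : p.Prime) : 1 / (p:ℝ) ≤ 1 / 2 :=
  one_div_le_one_div_of_le (by norm_num) (by exact_mod_cast hp.two_le)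

lemma PP_pos (s v : ℕ) : 0 < PP s v := by
  refine Finset.prod_pos fun p hp => ?_
  have := inv_prime_le_half (Nat.prime_of_mem_primeFactors (Finset.filter_subset _ _ hp))
  linarith

lemma PP_le_one (s v : ℕ) : PP s v ≤ 1 := by
  refine Finset.prod_le_one (fun p hp => ?_) fun p hp => ?_
  · have := inv_prime_le_half (Nat.prime_of_mem_primeFactors (Finset.filter_subset _ _ hp))
    linarith
  · have : (0:ℝ) ≤ 1 / (p:ℝ) := by positivity
    linarith

/-- The product over all `n ≤ s` telescopes. -/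
lemma prod_Icc_two (s : ℕ) (hs : 1 ≤ s) :
    ∏ n ∈ Finset.Icc 2 s, (1 - 1 / (n:ℝ)) = 1 / s := by
  induction s, hs using Nat.le_induction with
  | base => simp
  | succ n hn ih =>
    rw [Finset.prod_Icc_succ_top (by omega), ih]
    have : (0:ℝ) < n := by exact_mod_cast hn
    push_cast
    field_simp
    ring

lemma PP_ge (s v : ℕ) (hs : 1 ≤ s) : 1 / (s:ℝ) ≤ PP s v := by
  rw [← prod_Icc_two s hs, PP]
  refine Finset.prod_le_prod_of_subset_of_le_one (fun p hp => ?_) (fun n hn => ?_) fun n hn _ => ?_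
  · simp only [Finset.mem_filter] at hp
    exact Finset.mem_Icc.2 ⟨(Nat.prime_of_mem_primeFactors hp.1).two_le, hp.2⟩
  · have h2 : (2:ℝ) ≤ n := by exact_mod_cast (Finset.mem_Icc.1 hn).1
    rw [sub_nonneg, div_le_one (by linarith)]
    linarith
  · have : (0:ℝ) ≤ 1 / (n:ℝ) := by positivity
    linarith

/-- `φ(v)/v` split at `s`. -/
lemma totient_div_eq (s : ℕ) {v : ℕ} (hv : 0 < v) :
    (v.totient : ℝ) / v = PP s v * ∏ p ∈ large s v, (1 - 1 / (p:ℝ)) := by
  have h := congrArg (Rat.cast : ℚ → ℝ) (Nat.totient_eq_mul_prod_factors v)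
  push_cast at h
  rw [h, mul_div_cancel_left₀ _ (by exact_mod_cast hv.ne' : (v:ℝ) ≠ 0)]
  rw [PP, large, ← Finset.prod_filter_mul_prod_filter_not v.primeFactors (fun p => p ≤ s)]
  simp only [not_le, one_div]

lemma PP_le_exp (s : ℕ) {v : ℕ} (hv : 0 < v) :
    PP s v ≤ (v.totient : ℝ) / v * exp (2 * SS s v) := by
  have hP := PP_pos s v
  have h1 : exp (-(2 * SS s v)) ≤ ∏ p ∈ large s v, (1 - 1 / (p:ℝ)) := by
    rw [SS, ← large, Finset.mul_sum, ← Finset.sum_neg_distrib, exp_sum]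
    refine Finset.prod_le_prod (fun p _ => (exp_pos _).le) fun p hp => ?_
    set t := 1 / (p:ℝ)
    have ht : t ≤ 1 / 2 :=
      inv_prime_le_half (Nat.prime_of_mem_primeFactors (Finset.filter_subset _ _ hp))
    have ht0 : 0 ≤ t := by positivity
    have h2 := add_one_le_exp (2 * t)
    have h3 : exp (-(2 * t)) * exp (2 * t) = 1 := by rw [← exp_add]; simp
    nlinarith [exp_pos (-(2 * t))]
  rw [totient_div_eq s hv]
  have h4 : 1 ≤ (∏ p ∈ large s v, (1 - 1 / (p:ℝ))) * exp (2 * SS s v) := by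
    have := mul_le_mul_of_nonneg_right h1 (exp_pos (2 * SS s v)).le
    rwa [← exp_add, neg_add_cancel, exp_zero] at this
  nlinarith

lemma one_le_inv_totient (s : ℕ) (hs : 1 ≤ s) {v : ℕ} (hv : 0 < v) :
    1 ≤ (s:ℝ) * exp (2 * SS s v) * ((v.totient : ℝ) / v) := by
  have h1 := (PP_ge s v hs).trans (PP_le_exp s hv)
  have h2 : (0:ℝ) < s := by exact_mod_cast hs
  have := mul_le_mul_of_nonneg_left h1 h2.le
  rw [mul_one_div_cancel h2.ne'] at this
  linarith

lemma SS_mul_le (s : ℕ) {a b : ℕ} (ha : a ≠ 0) (hb : b ≠ 0) :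
    SS s (a * b) ≤ SS s a + SS s b := by
  simp only [SS, Nat.primeFactors_mul ha hb, Finset.filter_union]
  rw [← Finset.sum_union_inter]
  exact le_add_of_nonneg_right (Finset.sum_nonneg fun _ _ => by positivity)

lemma exp_le_one_add_two {t : ℝ} (h0 : 0 ≤ t) (h1 : t ≤ 1) : exp t ≤ 1 + 2 * t := by
  have := Real.abs_exp_sub_one_le (x := t) (by rw [abs_of_nonneg h0]; exact h1)
  rw [abs_le, abs_of_nonneg h0] at this
  linarith [this.2]

lemma exp_SS_le (s v : ℕ) :
    exp ((s:ℝ) * SS s v) ≤ ∑ t ∈ (large s v).powerset, ∏ p ∈ t, 2 * (s:ℝ) / p := by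
  rw [SS, ← large, Finset.mul_sum, exp_sum, ← Finset.prod_one_add]
  refine Finset.prod_le_prod (fun p _ => (exp_pos _).le) fun p hp => ?_
  simp only [large, Finset.mem_filter] at hp
  have hp0 : (0:ℝ) < p := by exact_mod_cast (Nat.prime_of_mem_primeFactors hp.1).pos
  have := exp_le_one_add_two (t := (s:ℝ) * (1 / p)) (by positivity) (by
    rw [mul_one_div, div_le_one hp0]; exact_mod_cast hp.2.le)
  calc exp ((s:ℝ) * (1 / p)) ≤ _ := this
    _ = _ := by ring

/-- A sum whose sub-sums over multiples of `P` are at most `M / P` is stable under `exp (s SS)`. -/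
theorem sum_exp_SS_le (s : ℕ) (F : Finset ℕ) (f : ℕ → ℝ) {M : ℝ} (hf : ∀ v ∈ F, 0 ≤ f v)
    (hM : 0 ≤ M) (h : ∀ P : ℕ, 0 < P → ∑ v ∈ F.filter (fun v => P ∣ v), f v ≤ M / P) :
    ∑ v ∈ F, f v * exp ((s:ℝ) * SS s v) ≤ exp 4 * M := by
  classical
  set U := F.biUnion (large s) with hU
  have hUp : ∀ p ∈ U, p.Prime ∧ s < p := fun p hp => by
    obtain ⟨v, -, hv⟩ := Finset.mem_biUnion.1 hp
    simp only [large, Finset.mem_filter] at hv
    exact ⟨Nat.prime_of_mem_primeFactors hv.1, hv.2⟩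
  calc ∑ v ∈ F, f v * exp ((s:ℝ) * SS s v)
      ≤ ∑ v ∈ F, ∑ t ∈ (large s v).powerset, f v * ∏ p ∈ t, 2 * (s:ℝ) / p := by
        refine Finset.sum_le_sum fun v hv => ?_
        rw [← Finset.mul_sum]
        exact mul_le_mul_of_nonneg_left (exp_SS_le s v) (hf v hv)
    _ = ∑ t ∈ U.powerset, ∑ v ∈ F.filter (fun v => t ⊆ large s v),
          f v * ∏ p ∈ t, 2 * (s:ℝ) / p := by
        refine Finset.sum_comm' fun v t => ?_
        simp only [Finset.mem_powerset, Finset.mem_filter]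
        exact ⟨fun ⟨hv, ht⟩ => ⟨⟨hv, ht⟩, ht.trans (Finset.subset_biUnion_of_mem _ hv)⟩,
          fun ⟨⟨hv, ht⟩, _⟩ => ⟨hv, ht⟩⟩
    _ ≤ ∑ t ∈ U.powerset, M * ∏ p ∈ t, 2 * (s:ℝ) / (p:ℝ) ^ 2 := by
        refine Finset.sum_le_sum fun t ht => ?_
        have htU := Finset.mem_powerset.1 ht
        have hP : 0 < ∏ p ∈ t, p := Finset.prod_pos fun p hp => (hUp p (htU hp)).1.pos
        rw [← Finset.sum_mul]
        have hsub : F.filter (fun v => t ⊆ large s v) ⊆
            F.filter (fun v => (∏ p ∈ t, p) ∣ v) := by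
          intro v hv
          simp only [Finset.mem_filter] at hv ⊢
          exact ⟨hv.1, (Finset.prod_dvd_prod_of_subset _ _ _
            (hv.2.trans (Finset.filter_subset _ _))).trans (Nat.prod_primeFactors_dvd v)⟩
        have h1 := (Finset.sum_le_sum_of_subset_of_nonneg hsub fun v hv _ =>
          hf v (Finset.mem_filter.1 hv).1).trans (h _ hP)
        refine (mul_le_mul_of_nonneg_right h1
          (Finset.prod_nonneg fun p _ => by positivity)).trans_eq ?_
        push_cast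
        rw [Finset.prod_div_distrib, Finset.prod_div_distrib, Finset.prod_pow, div_mul_div_comm,
          sq, mul_div_assoc]
    _ = M * ∏ p ∈ U, (1 + 2 * (s:ℝ) / (p:ℝ) ^ 2) := by rw [Finset.prod_one_add, Finset.mul_sum]
    _ ≤ M * exp 4 := by
        refine mul_le_mul_of_nonneg_left ?_ hM
        calc ∏ p ∈ U, (1 + 2 * (s:ℝ) / (p:ℝ) ^ 2)
            ≤ ∏ p ∈ U, exp (2 * (s:ℝ) / (p:ℝ) ^ 2) :=
              Finset.prod_le_prod (fun p _ => by positivity)
                fun p _ => by linarith [add_one_le_exp (2 * (s:ℝ) / (p:ℝ) ^ 2)]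
          _ = exp (∑ p ∈ U, 2 * (s:ℝ) / (p:ℝ) ^ 2) := (exp_sum _ _).symm
          _ ≤ exp 4 := by
              refine exp_le_exp.2 ?_
              calc ∑ p ∈ U, 2 * (s:ℝ) / (p:ℝ) ^ 2
                  ≤ ∑ p ∈ Finset.Ioo s (U.sup id + 1), 2 * (s:ℝ) / (p:ℝ) ^ 2 :=
                    Finset.sum_le_sum_of_subset_of_nonneg (fun p hp => Finset.mem_Ioo.2
                      ⟨(hUp p hp).2, Nat.lt_succ_of_le (Finset.le_sup (f := id) hp)⟩)
                      fun _ _ _ => by positivity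
                _ = 2 * (s:ℝ) * ∑ p ∈ Finset.Ioo s (U.sup id + 1), ((p:ℝ) ^ 2)⁻¹ := by
                    rw [Finset.mul_sum]; rfl
                _ ≤ 2 * (s:ℝ) * (2 / ((s:ℝ) + 1)) :=
                    mul_le_mul_of_nonneg_left (sum_Ioo_inv_sq_le s _) (by positivity)
                _ ≤ 4 := by
                    have hs1 : (0:ℝ) < (s:ℝ) + 1 := by positivity
                    rw [← mul_div_assoc, div_le_iff₀ hs1]
                    linarith
    _ = exp 4 * M := mul_comm _ _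

theorem sum_range_exp_SS_le (s V : ℕ) :
    ∑ v ∈ Finset.Ioc 0 V, exp ((s:ℝ) * SS s v) ≤ exp 4 * V := by
  have := sum_exp_SS_le s (Finset.Ioc 0 V) (fun _ => 1) (M := V) (fun _ _ => zero_le_one)
    (Nat.cast_nonneg V) fun P hP => by
      rw [Finset.sum_const, nsmul_eq_mul, mul_one, Nat.Ioc_filter_dvd_card_eq_div]
      exact Nat.cast_div_le
  simpa using this

/-- `σ(q) φ(q) ≤ q²`. -/
lemma sigma_mul_totient_le {q : ℕ} (hq : q ≠ 0) :
    (∑ d ∈ q.divisors, d) * q.totient ≤ q * q := by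
  rw [Nat.sum_divisors hq, Nat.totient_eq_prod_factorization hq]
  conv_rhs => rw [← Nat.prod_factorization_pow_eq_self hq]
  rw [Finsupp.prod, Finsupp.prod, Nat.support_factorization, ← Finset.prod_mul_distrib,
    ← Finset.prod_mul_distrib]
  refine Finset.prod_le_prod (fun _ _ => Nat.zero_le _) fun p hp => ?_
  have hp2 := (Nat.prime_of_mem_primeFactors hp).two_le
  obtain ⟨k, hk⟩ : ∃ k, q.factorization p = k + 1 :=
    Nat.exists_eq_add_one.2 ((Nat.prime_of_mem_primeFactors hp).factorization_pos_of_dvd hq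
      (Nat.dvd_of_mem_primeFactors hp))
  rw [hk, Nat.add_sub_cancel]
  have hgeom : ∀ n, (p - 1) * ∑ j ∈ Finset.range n, p ^ j ≤ p ^ n := by
    intro n
    induction n with
    | zero => simp
    | succ n ih =>
      rw [Finset.sum_range_succ, mul_add, pow_succ]
      calc _ ≤ p ^ n + (p - 1) * p ^ n := Nat.add_le_add_right ih _
        _ = p ^ n * p := by
          obtain ⟨m, rfl⟩ : ∃ m, p = m + 1 := ⟨p - 1, by omega⟩
          rw [Nat.add_sub_cancel]; ring
  calc (∑ j ∈ Finset.range (k + 1 + 1), p ^ j) * (p ^ k * (p - 1))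
      = p ^ k * ((p - 1) * ∑ j ∈ Finset.range (k + 1 + 1), p ^ j) := by ring
    _ ≤ p ^ k * p ^ (k + 1 + 1) := Nat.mul_le_mul_left _ (hgeom _)
    _ = p ^ (k + 1) * p ^ (k + 1) := by ring

lemma sum_inv_divisors_le {q : ℕ} (hq : 0 < q) :
    ∑ d ∈ q.divisors, (1:ℝ) / d ≤ (q:ℝ) / q.totient := by
  have hφ : (0:ℝ) < q.totient := by exact_mod_cast Nat.totient_pos.2 hq
  have hqR : (0:ℝ) < q := by exact_mod_cast hq
  have e : ∑ d ∈ q.divisors, (1:ℝ) / d = (∑ d ∈ q.divisors, (d:ℝ)) / q := by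
    rw [← Nat.sum_div_divisors q fun d => (1:ℝ) / d, Finset.sum_div]
    refine Finset.sum_congr rfl fun d hd => ?_
    have hdq := Nat.dvd_of_mem_divisors hd
    have hd0 : (d:ℝ) ≠ 0 := by exact_mod_cast (Nat.pos_of_mem_divisors hd).ne'
    rw [Nat.cast_div hdq hd0]
    field_simp
  rw [e, div_le_div_iff₀ hqR hφ]
  have h := (Nat.cast_le (α := ℝ)).2 (sigma_mul_totient_le hq.ne')
  push_cast at h
  exact h

theorem sum_divisors_exp_SS_le (s : ℕ) {q : ℕ} (hq : 0 < q) :
    ∑ g ∈ q.divisors, 1 / (g:ℝ) * exp ((s:ℝ) * SS s g) ≤ exp 4 * ((q:ℝ) / q.totient) := by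
  refine sum_exp_SS_le s _ _ (fun _ _ => by positivity) (by positivity) fun P hP => ?_
  calc ∑ v ∈ q.divisors.filter (fun v => P ∣ v), 1 / (v:ℝ)
      = ∑ w ∈ (q.divisors.filter (fun v => P ∣ v)).image (· / P), 1 / (w:ℝ) / P := by
        rw [Finset.sum_image fun a ha b hb hab => by
          simp only [Finset.coe_filter, Set.mem_ofPred_eq] at ha hb
          rw [← Nat.div_mul_cancel ha.2, hab, Nat.div_mul_cancel hb.2]]
        refine Finset.sum_congr rfl fun v hv => ?_
        simp only [Finset.mem_filter] at hv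
        conv_lhs => rw [← Nat.div_mul_cancel hv.2]
        push_cast
        rw [div_div]
    _ ≤ ∑ w ∈ q.divisors, 1 / (w:ℝ) / P := by
        refine Finset.sum_le_sum_of_subset_of_nonneg (fun w hw => ?_) fun _ _ _ => by positivity
        simp only [Finset.mem_image, Finset.mem_filter, Nat.mem_divisors] at hw ⊢
        obtain ⟨v, ⟨⟨hv, h0⟩, hPv⟩, rfl⟩ := hw
        exact ⟨(Nat.div_dvd_of_dvd hPv).trans hv, h0⟩
    _ ≤ _ := by
        rw [← Finset.sum_div]
        exact div_le_div_of_nonneg_right (sum_inv_divisors_le hq) (Nat.cast_nonneg P)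

/-- There are few primes up to `s`. -/
lemma card_primes_le (s : ℕ) :
    ((Finset.range (s + 1)).filter Nat.Prime).card ≤ s / 3 + 3 := by
  classical
  have hsub : (Finset.range (s + 1)).filter Nat.Prime ⊆
      {2, 3} ∪ (Finset.range (s + 1)).filter (fun p => p.Prime ∧ 5 ≤ p) := by
    intro p hp
    simp only [Finset.mem_union, Finset.mem_insert, Finset.mem_singleton, Finset.mem_filter]
      at hp ⊢
    have h2 := hp.2.two_le
    have h4 : p ≠ 4 := fun h => by rw [h] at hp; exact absurd hp.2 (by norm_num)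
    by_cases h5 : 5 ≤ p
    · exact Or.inr ⟨hp.1, hp.2, h5⟩
    · left; omega
  have h2 : ((Finset.range (s + 1)).filter (fun p => p.Prime ∧ 5 ≤ p)).card ≤ s / 3 + 1 := by
    refine (Finset.card_le_card_of_injOn (fun p => p / 3) (fun p hp => ?_) ?_).trans
      (Finset.card_range _).le
    · simp only [Finset.coe_filter, Set.mem_ofPred_eq, Finset.mem_range] at hp
      show p / 3 ∈ Finset.range (s / 3 + 1)
      exact Finset.mem_range.2 (by omega)
    · intro a ha b hb hab
      simp only [Finset.coe_filter, Set.mem_ofPred_eq] at ha hb hab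
      have key : ∀ p : ℕ, p.Prime → 5 ≤ p → p % 2 = 1 ∧ p % 3 ≠ 0 := fun p hp h5 =>
        ⟨hp.eq_two_or_odd.resolve_left (by omega), fun h =>
          absurd ((Nat.prime_dvd_prime_iff_eq Nat.prime_three hp).1 (Nat.dvd_of_mod_eq_zero h))
            (by omega)⟩
      have := key a ha.2.1 ha.2.2
      have := key b hb.2.1 hb.2.2
      omega
  have h3 : ({2, 3} : Finset ℕ).card ≤ 2 := Finset.card_le_two
  have := (Finset.card_le_card hsub).trans (Finset.card_union_le _ _)
  omega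

lemma pow_six_le (n : ℕ) : n ^ 6 ≤ 46080 * 2 ^ n := by
  have h1 : n ^ 6 ≤ (n + 6).descFactorial 6 :=
    (Nat.pow_le_pow_left (by omega) 6).trans (Nat.pow_sub_le_descFactorial (n + 6) 6)
  rw [Nat.descFactorial_eq_factorial_mul_choose] at h1
  have h2 := Nat.choose_le_two_pow (n + 6) 6
  rw [pow_add] at h2
  have h6 : Nat.factorial 6 = 720 := rfl
  rw [h6] at h1
  omega

lemma four_pow_primes_le (s : ℕ) :
    4 ^ ((Finset.range (s + 1)).filter Nat.Prime).card * s ^ 2 ≤ 2304 * 2 ^ s := by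
  set n := ((Finset.range (s + 1)).filter Nat.Prime).card
  have hn : n ≤ s / 3 + 3 := card_primes_le s
  rw [← Nat.pow_le_pow_iff_left (show 3 ≠ 0 by norm_num)]
  calc (4 ^ n * s ^ 2) ^ 3 = 4 ^ (3 * n) * s ^ 6 := by ring
    _ ≤ 4 ^ (s + 9) * (46080 * 2 ^ s) :=
        Nat.mul_le_mul (Nat.pow_le_pow_right (by norm_num) (by omega)) (pow_six_le s)
    _ = (4 ^ 9 * 46080) * (4 ^ s * 2 ^ s) := by rw [pow_add]; ring
    _ ≤ 2304 ^ 3 * (4 ^ s * 2 ^ s) := Nat.mul_le_mul_right _ (by norm_num)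
    _ = (2304 * 2 ^ s) ^ 3 := by
        rw [mul_pow, ← pow_mul, show (4:ℕ) = 2 ^ 2 by norm_num, ← pow_mul, ← pow_add]
        ring_nf

end Vale.P028EV.CA
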