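import Vale.Agent.P028.EV.CaseA.Count

/-! # P028 case A: the selected pairs, using only primes up to `s` -/

open scoped BigOperators

namespace Vale.P028EV.CA

/-- `Sel` avoids one class modulo each prime divisor. -/
lemma exists_forbidden (C : ℤ) (B q : ℕ) : ∃ c : ℕ → ℤ, ∀ a : ℤ, Sel C B q a →
    ∀ p ∈ q.primeFactors, ¬ (p:ℤ) ∣ a - c p := by
  have h : ∀ p : ℕ, ∃ c : ℤ, p.Prime → ∀ a : ℤ,
      ((p ∣ B → ¬ (p:ℤ) ∣ a) ∧ (¬ p ∣ B → ¬ (p:ℤ) ∣ a * B + C)) → ¬ (p:ℤ) ∣ a - c := by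
    intro p
    by_cases hB : p ∣ B
    · exact ⟨0, fun _ a ha => by simpa using ha.1 hB⟩
    · by_cases hp : p.Prime
      · obtain ⟨u, v, huv⟩ : ∃ u v : ℤ, u * p + v * B = 1 :=
          (Nat.isCoprime_iff_coprime.2 (hp.coprime_iff_not_dvd.2 hB) : IsCoprime (p:ℤ) (B:ℤ))
        refine ⟨-C * v, fun _ a ha hdvd => ha.2 hB ?_⟩
        obtain ⟨k, hk⟩ := hdvd
        exact ⟨k * B + C * u, by linear_combination (B:ℤ) * hk - C * huv⟩
      · exact ⟨0, fun h => absurd h hp⟩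
  choose c hc using h
  exact ⟨c, fun a ha p hp => hc p (Nat.prime_of_mem_primeFactors hp) a (ha p hp)⟩

/-- CRT for distinct primes. -/
lemma exists_crt (t : Finset ℕ) (ht : ∀ p ∈ t, p.Prime) (c : ℕ → ℤ) :
    ∃ α : ℤ, ∀ a : ℤ,
      (∀ p ∈ t, (p:ℤ) ∣ a - c p) ↔ ((∏ p ∈ t, p : ℕ) : ℤ) ∣ a - α := by
  induction t using Finset.induction_on with
  | empty => exact ⟨0, fun a => by simp⟩
  | insert p t hp ih =>
    obtain ⟨α, hα⟩ := ih fun r hr => ht r (Finset.mem_insert_of_mem hr)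
    set P := ∏ r ∈ t, r
    have hcop : IsCoprime (p:ℤ) (P:ℤ) := Nat.isCoprime_iff_coprime.2
      (Nat.Coprime.prod_right fun r hr =>
        (Nat.coprime_primes (ht p (Finset.mem_insert_self _ _))
          (ht r (Finset.mem_insert_of_mem hr))).2 fun e => hp (e ▸ hr))
    obtain ⟨u, v, huv⟩ := id hcop
    refine ⟨c p * (v * P) + α * (u * p), fun a => ?_⟩
    rw [Finset.forall_mem_insert, hα a, Finset.prod_insert hp, Nat.cast_mul]
    have d1 : (p:ℤ) ∣ c p - (c p * (v * P) + α * (u * p)) :=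
      ⟨c p * u - α * u, by linear_combination (-(c p)) * huv⟩
    have d2 : (P:ℤ) ∣ α - (c p * (v * P) + α * (u * p)) :=
      ⟨α * v - c p * v, by linear_combination (-α) * huv⟩
    constructor
    · rintro ⟨h1, h2⟩
      refine hcop.mul_dvd ?_ ?_
      · simpa using dvd_add h1 d1
      · have h3 := dvd_add h2 d2
        rwa [sub_add_sub_cancel] at h3
    · intro h
      refine ⟨?_, ?_⟩
      · simpa using dvd_sub ((dvd_mul_right _ _).trans h) d1
      · have h3 := dvd_sub ((dvd_mul_left (P:ℤ) (p:ℤ)).trans h) d2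
        rwa [sub_sub_sub_cancel_right] at h3

/-- The primes up to `s` dividing `v`. -/
def small (s v : ℕ) : Finset ℕ := v.primeFactors.filter (fun p => p ≤ s)

lemma card_small_le (s v : ℕ) :
    (small s v).card ≤ ((Finset.range (s + 1)).filter Nat.Prime).card := by
  refine Finset.card_le_card fun p hp => ?_
  simp only [small, Finset.mem_filter] at hp
  exact Finset.mem_filter.2 ⟨Finset.mem_range.2 (by omega), Nat.prime_of_mem_primeFactors hp.1⟩

lemma prod_small_dvd (s v : ℕ) {t : Finset ℕ} (ht : t ⊆ small s v) : (∏ p ∈ t, p) ∣ v :=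
  (Finset.prod_dvd_prod_of_subset _ _ _ (ht.trans (Finset.filter_subset _ _))).trans
    (Nat.prod_primeFactors_dvd v)

/-- Expansion of the product over the small primes. -/
lemma prod_expand {ι : Type*} [DecidableEq ι] (T : Finset ι) (u : ι → ℝ) :
    ∏ i ∈ T, (1 - u i) = ∑ t ∈ T.powerset, (-1 : ℝ) ^ t.card * ∏ i ∈ t, u i := by
  simp only [sub_eq_add_neg, Finset.prod_one_add, Finset.prod_neg]

lemma PP_expand (s v : ℕ) :
    PP s v = ∑ t ∈ (small s v).powerset, (-1 : ℝ) ^ t.card / (((∏ p ∈ t, p : ℕ)) : ℝ) := by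
  rw [PP, ← small, prod_expand]
  refine Finset.sum_congr rfl fun t _ => ?_
  push_cast
  simp only [one_div, Finset.prod_inv_distrib]
  rw [div_eq_mul_inv]

open scoped Classical in
/-- **The local count.** -/
theorem sum_Nn_le {γ : ℝ} {ψ : ℕ → ℝ} (C : ℕ → ℤ) (B : ℕ → ℕ) (s : ℕ) {q r : ℕ} (hq : 0 < q)
    (hr : 0 < r) (hψ : 0 ≤ ψ q) :
    ∑ n ∈ nset γ ψ q r, (Nn C B q r n : ℝ) ≤ (Nat.gcd q r : ℝ) *
      (4 * DD ψ q r * (PP s q * PP s r) +
        4 ^ ((Finset.range (s + 1)).filter Nat.Prime).card) := by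
  set g := Nat.gcd q r with hgdef
  set x := xx q r with hxdef
  set y := yy q r with hydef
  have hg : 0 < g := Nat.gcd_pos_of_pos_left _ hq
  have hgx : g * x = q := Nat.mul_div_cancel' (Nat.gcd_dvd_left q r)
  have hgy : g * y = r := Nat.mul_div_cancel' (Nat.gcd_dvd_right q r)
  have hx : 0 < x := Nat.pos_of_mul_pos_left (hgx.symm ▸ hq)
  have hy : 0 < y := Nat.pos_of_mul_pos_left (hgy.symm ▸ hr)
  have hxy : Nat.Coprime x y := Nat.coprime_div_gcd_div_gcd hg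
  have hxR : (x:ℤ) ≠ 0 := by exact_mod_cast hx.ne'
  obtain ⟨cA, hcA⟩ := exists_forbidden (C q) (B q) q
  obtain ⟨cB, hcB⟩ := exists_forbidden (C r) (B r) r
  have hTA : ∀ t ∈ (small s q).powerset, ∀ p ∈ t, p.Prime := fun t ht p hp =>
    Nat.prime_of_mem_primeFactors (Finset.filter_subset _ _ (Finset.mem_powerset.1 ht hp))
  have hTB : ∀ t ∈ (small s r).powerset, ∀ p ∈ t, p.Prime := fun t ht p hp =>
    Nat.prime_of_mem_primeFactors (Finset.filter_subset _ _ (Finset.mem_powerset.1 ht hp))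
  have exA : ∀ t : Finset ℕ, ∃ α : ℤ, t ∈ (small s q).powerset → ∀ a : ℤ,
      (∀ p ∈ t, (p:ℤ) ∣ a - cA p) ↔ ((∏ p ∈ t, p : ℕ) : ℤ) ∣ a - α := by
    intro t
    by_cases ht : t ∈ (small s q).powerset
    · obtain ⟨α, hα⟩ := exists_crt t (hTA t ht) cA
      exact ⟨α, fun _ => hα⟩
    · exact ⟨0, fun h => absurd h ht⟩
  have exB : ∀ t : Finset ℕ, ∃ α : ℤ, t ∈ (small s r).powerset → ∀ a : ℤ,
      (∀ p ∈ t, (p:ℤ) ∣ a - cB p) ↔ ((∏ p ∈ t, p : ℕ) : ℤ) ∣ a - α := by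
    intro t
    by_cases ht : t ∈ (small s r).powerset
    · obtain ⟨α, hα⟩ := exists_crt t (hTB t ht) cB
      exact ⟨α, fun _ => hα⟩
    · exact ⟨0, fun h => absurd h ht⟩
  choose αA hαA using exA
  choose αB hαB using exB
  -- one `n`
  have hone : ∀ n : ℤ, (Nn C B q r n : ℝ) ≤
      ∑ t ∈ (small s q).powerset, ∑ t' ∈ (small s r).powerset,
        (-1 : ℝ) ^ t.card * (-1 : ℝ) ^ t'.card *
          (((Finset.range (g * x)).filter (fun a : ℕ => ((∏ p ∈ t, p : ℕ):ℤ) ∣ (a:ℤ) - αA t ∧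
            ((x * ∏ p ∈ t', p : ℕ):ℤ) ∣ (y:ℤ) * a - n - (x:ℤ) * αB t')).card : ℝ) := by
    intro n
    have hNn : (Nn C B q r n : ℝ) = ∑ a ∈ Finset.range (g * x),
        if Sel (C q) (B q) q a ∧ ∃ b : ℤ, (y:ℤ) * a - (x:ℤ) * b = n ∧ Sel (C r) (B r) r b
          then (1:ℝ) else 0 := by
      simp only [Nn, ← hxdef, ← hydef, hgx]
      rw [Finset.sum_boole]
    have hrhs : ∀ t t' : Finset ℕ, (((Finset.range (g * x)).filter
        (fun a : ℕ => ((∏ p ∈ t, p : ℕ):ℤ) ∣ (a:ℤ) - αA t ∧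
          ((x * ∏ p ∈ t', p : ℕ):ℤ) ∣ (y:ℤ) * a - n - (x:ℤ) * αB t')).card : ℝ)
        = ∑ a ∈ Finset.range (g * x), if ((∏ p ∈ t, p : ℕ):ℤ) ∣ (a:ℤ) - αA t ∧
          ((x * ∏ p ∈ t', p : ℕ):ℤ) ∣ (y:ℤ) * a - n - (x:ℤ) * αB t' then (1:ℝ) else 0 := by
      intro t t'
      rw [Finset.sum_boole]
    simp only [hrhs, Finset.mul_sum]
    conv_rhs => enter [2, t]; rw [Finset.sum_comm]
    rw [Finset.sum_comm, hNn]
    refine Finset.sum_le_sum fun a _ => ?_
    by_cases hsol : (x:ℤ) ∣ (y:ℤ) * a - n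
    · obtain ⟨b, hb⟩ := hsol
      have hx' : ∀ t' : Finset ℕ, ((x * ∏ p ∈ t', p : ℕ):ℤ) ∣ (y:ℤ) * a - n - (x:ℤ) * αB t' ↔
          ((∏ p ∈ t', p : ℕ):ℤ) ∣ b - αB t' := by
        intro t'
        rw [Nat.cast_mul, hb, ← mul_sub]
        exact mul_dvd_mul_iff_left hxR
      have eA : ∀ t ∈ (small s q).powerset,
          (if ((∏ p ∈ t, p : ℕ):ℤ) ∣ (a:ℤ) - αA t then (1:ℝ) else 0)
            = ∏ p ∈ t, if (p:ℤ) ∣ (a:ℤ) - cA p then (1:ℝ) else 0 := by
        intro t ht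
        rw [Finset.prod_boole]
        exact if_congr (hαA t ht a).symm rfl rfl
      have eB : ∀ t' ∈ (small s r).powerset,
          (if ((∏ p ∈ t', p : ℕ):ℤ) ∣ b - αB t' then (1:ℝ) else 0)
            = ∏ p ∈ t', if (p:ℤ) ∣ b - cB p then (1:ℝ) else 0 := by
        intro t' ht'
        rw [Finset.prod_boole]
        exact if_congr (hαB t' ht' b).symm rfl rfl
      have hEq : ∑ t ∈ (small s q).powerset, ∑ t' ∈ (small s r).powerset,
          (-1 : ℝ) ^ t.card * (-1 : ℝ) ^ t'.card *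
            (if ((∏ p ∈ t, p : ℕ):ℤ) ∣ (a:ℤ) - αA t ∧
              ((x * ∏ p ∈ t', p : ℕ):ℤ) ∣ (y:ℤ) * a - n - (x:ℤ) * αB t' then (1:ℝ) else 0)
          = (∏ p ∈ small s q, (1 - if (p:ℤ) ∣ (a:ℤ) - cA p then (1:ℝ) else 0)) *
            ∏ p ∈ small s r, (1 - if (p:ℤ) ∣ b - cB p then (1:ℝ) else 0) := by
        rw [prod_expand, prod_expand, Finset.sum_mul_sum]
        refine Finset.sum_congr rfl fun t ht => Finset.sum_congr rfl fun t' ht' => ?_
        rw [← eA t ht, ← eB t' ht', ite_and]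
        simp only [hx']
        split_ifs <;> ring
      rw [hEq]
      have hnn : ∀ (P : Finset ℕ) (z : ℤ) (c : ℕ → ℤ),
          0 ≤ ∏ p ∈ P, (1 - if (p:ℤ) ∣ z - c p then (1:ℝ) else 0) := fun P z c =>
        Finset.prod_nonneg fun p _ => by split_ifs <;> norm_num
      split_ifs with hsel
      · obtain ⟨h1, b', hb', h2⟩ := hsel
        have hbb : b' = b := mul_left_cancel₀ hxR (by linarith)
        rw [hbb] at h2
        rw [Finset.prod_eq_one fun p hp => by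
            rw [if_neg (hcA a h1 p (Finset.filter_subset _ _ hp))]; ring,
          Finset.prod_eq_one fun p hp => by
            rw [if_neg (hcB b h2 p (Finset.filter_subset _ _ hp))]; ring, one_mul]
      · exact mul_nonneg (hnn _ _ _) (hnn _ _ _)
    · rw [if_neg fun hsel => hsol ?_]
      · refine le_of_eq (Finset.sum_eq_zero fun t _ => Finset.sum_eq_zero fun t' _ => ?_).symm
        rw [if_neg fun hd => hsol ?_, mul_zero]
        have h1 := (dvd_mul_right (x:ℤ) ((∏ p ∈ t', p : ℕ):ℤ)).trans (by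
          rw [← Nat.cast_mul]; exact hd.2 :
            (x:ℤ) * ((∏ p ∈ t', p : ℕ):ℤ) ∣ (y:ℤ) * a - n - (x:ℤ) * αB t')
        simpa using dvd_add h1 (dvd_mul_right (x:ℤ) (αB t'))
      · obtain ⟨-, b', hb', -⟩ := hsel
        exact ⟨b', by linarith⟩
  have hD : 0 ≤ DD ψ q r := mul_nonneg hψ (Nat.cast_nonneg _)
  refine (Finset.sum_le_sum fun n _ => hone n).trans ?_
  rw [Finset.sum_comm]
  set L := 2 * DD ψ q r
  set cm := (mm q r : ℝ) * γ
  have hterm : ∀ t ∈ (small s q).powerset, ∀ t' ∈ (small s r).powerset,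
      ∑ n ∈ nset γ ψ q r, (-1 : ℝ) ^ t.card * (-1 : ℝ) ^ t'.card *
          (((Finset.range (g * x)).filter (fun a : ℕ => ((∏ p ∈ t, p : ℕ):ℤ) ∣ (a:ℤ) - αA t ∧
            ((x * ∏ p ∈ t', p : ℕ):ℤ) ∣ (y:ℤ) * a - n - (x:ℤ) * αB t')).card : ℝ) ≤
        ((-1 : ℝ) ^ t.card / ((∏ p ∈ t, p : ℕ) : ℝ)) *
          ((-1 : ℝ) ^ t'.card / ((∏ p ∈ t', p : ℕ) : ℝ)) * (g * (2 * L)) + g := by
    intro t ht t' ht'
    rw [← Finset.mul_sum]
    have hcp := card_pairs hg hx hy hxy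
      (hgx ▸ prod_small_dvd s q (Finset.mem_powerset.1 ht))
      (hgy ▸ prod_small_dvd s r (Finset.mem_powerset.1 ht')) (αA t) (αB t') cm L
      (mul_nonneg zero_le_two hD)
    have hns : nset γ ψ q r =
        (Finset.Icc ⌊cm - L⌋ ⌈cm + L⌉).filter (fun n : ℤ => |(n:ℝ) - cm| < L) := rfl
    rw [← hns] at hcp
    rw [abs_le] at hcp
    rcases neg_one_pow_eq_or ℝ t.card with h1 | h1 <;>
      rcases neg_one_pow_eq_or ℝ t'.card with h2 | h2 <;> rw [h1, h2] <;>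
      simp only [div_eq_mul_inv, one_mul, neg_mul, mul_neg, neg_neg, mul_inv] at hcp ⊢ <;>
      linarith [hcp.1, hcp.2]
  calc ∑ t ∈ (small s q).powerset, ∑ n ∈ nset γ ψ q r, ∑ t' ∈ (small s r).powerset, _
      = ∑ t ∈ (small s q).powerset, ∑ t' ∈ (small s r).powerset, ∑ n ∈ nset γ ψ q r, _ :=
        Finset.sum_congr rfl fun t _ => Finset.sum_comm
    _ ≤ ∑ t ∈ (small s q).powerset, ∑ t' ∈ (small s r).powerset,
        (((-1 : ℝ) ^ t.card / ((∏ p ∈ t, p : ℕ) : ℝ)) *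
          ((-1 : ℝ) ^ t'.card / ((∏ p ∈ t', p : ℕ) : ℝ)) * (g * (2 * L)) + g) :=
        Finset.sum_le_sum fun t ht => Finset.sum_le_sum fun t' ht' => hterm t ht t' ht'
    _ = PP s q * PP s r * (g * (2 * L)) +
        ((small s q).powerset.card : ℝ) * ((small s r).powerset.card : ℝ) * g := by
        rw [PP_expand, PP_expand, Finset.sum_mul_sum, Finset.sum_mul]
        simp only [Finset.sum_add_distrib, Finset.sum_mul, Finset.sum_const, nsmul_eq_mul]
        ring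
    _ ≤ _ := by
        rw [Finset.card_powerset, Finset.card_powerset]
        push_cast
        have h4 : (2:ℝ) ^ (small s q).card * 2 ^ (small s r).card ≤
            4 ^ ((Finset.range (s + 1)).filter Nat.Prime).card := by
          rw [show (4:ℝ) = 2 * 2 by norm_num, mul_pow]
          exact mul_le_mul (pow_le_pow_right₀ one_le_two (card_small_le s q))
            (pow_le_pow_right₀ one_le_two (card_small_le s r)) (by positivity) (by positivity)
        have h5 := mul_le_mul_of_nonneg_right h4 (Nat.cast_nonneg (α := ℝ) g)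
        have : 2 * L = 4 * DD ψ q r := by ring
        rw [this]
        nlinarith

end Vale.P028EV.CA
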